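import Mathlib
import Vale.Agent.P249.DimDefs

/-!
# P249: the dimension function satisfies `d_p(n, D) ≤ C_{p,D} n log n` for every `1 ≤ p < ∞`

`dimNumber p n D` is the quantity `d_p(n, D)` of the problem: the least `d` such that every
`n`-point subset of every `L_p` space admits a map into `ℓ_p^d` with distortion at most `D`.
The first two parts say that it is a genuine minimum, the third is the bound.
-/

namespace Vale.Agent.Results.P249.DimensionNLogN

open Vale.Agent.P249

universe u

theorem result (p : ENNReal) [Fact (1 ≤ p)] (hp : p ≠ ⊤) (D : ℝ) (hD : 1 < D) (n : ℕ)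
    (hn : 2 ≤ n) :
    EmbedsAll.{u} p n D (dimNumber.{u} p n D) ∧
    (∀ d : ℕ, EmbedsAll.{u} p n D d → dimNumber.{u} p n D ≤ d) ∧
    (dimNumber.{u} p n D : ℝ) ≤
      10753 * 2304 ^ p.toReal * ((D + 1) / (D - 1)) ^ 2 * n * Real.log n :=
  ⟨(dimNumber_spec.{u} p hp D hD n hn).1,
    fun _ hd => Nat.sInf_le (s := {d : ℕ | EmbedsAll.{u} p n D d}) hd,
    (dimNumber_spec.{u} p hp D hD n hn).2⟩

end Vale.Agent.Results.P249.DimensionNLogN
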