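import Mathlib
import Vale.Agent.P249.Incompressible

/-!
# P249: logarithmic dimension, up to an additive error, for families with a small maximal function

If `x_1, ..., x_n` in `L_p(μ)` satisfy `‖ max_i |x_i| ‖_p ≤ K`, then for every `ε > 0` there are
`y_1, ..., y_n` in `ℓ_p^d`, `d ≤ 26 (2K)^{2p} (log n) / ε^2`, with
`| ‖y_i - y_j‖^p - ‖x_i - x_j‖^p | ≤ ε` for all `i, j`.
-/

namespace Vale.Agent.Results.P249.Incompressible

open MeasureTheory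

theorem result {α : Type*} [MeasurableSpace α] (μ : Measure α) (p : ENNReal) [Fact (1 ≤ p)]
    (hp : p ≠ ⊤) (n : ℕ) (hn : 2 ≤ n) (x : Fin n → Lp ℝ p μ) (K : ℝ) (hK0 : 0 ≤ K)
    (hK : ∫ ω, (⨆ i, |x i ω|) ^ p.toReal ∂μ ≤ K ^ p.toReal) (ε : ℝ) (hε : 0 < ε) :
    ∃ d : ℕ, (d : ℝ) ≤ 26 * (2 * K) ^ (2 * p.toReal) * Real.log n / ε ^ 2 ∧
      ∃ y : Fin n → PiLp p (fun _ : Fin d => ℝ), ∀ i j,
        ‖x i - x j‖ ^ p.toReal - ε ≤ ‖y i - y j‖ ^ p.toReal ∧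
        ‖y i - y j‖ ^ p.toReal ≤ ‖x i - x j‖ ^ p.toReal + ε :=
  Vale.Agent.P249.incompressible hp n hn x K hK0 hK ε hε

end Vale.Agent.Results.P249.Incompressible
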