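import Mathlib
import Vale.Agent.P249.Embed3

/-!
# P249: dimension reduction for finite subsets of `L_p`: the bound `n log n` for every `p`

Any `n` distinct points of any `L_p(μ)`, `1 ≤ p < ∞`, embed with distortion at most `D > 1`
into `ℓ_p^d` with `d ≤ 10753 * 2304^p * ((D+1)/(D-1))^2 * n * log n`.
-/

namespace Vale.Agent.Results.P249.NLogN

open MeasureTheory

theorem result {α : Type*} [MeasurableSpace α] (μ : Measure α) (p : ENNReal) [Fact (1 ≤ p)]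
    (hp : p ≠ ⊤) (D : ℝ) (hD : 1 < D) (n : ℕ) (hn : 2 ≤ n) (x : Fin n → Lp ℝ p μ)
    (hx : Function.Injective x) :
    ∃ d : ℕ, (d : ℝ) ≤ 10753 * 2304 ^ p.toReal * ((D + 1) / (D - 1)) ^ 2 * n * Real.log n ∧
      ∃ (f : Fin n → PiLp p (fun _ : Fin d => ℝ)) (s : ℝ), 0 < s ∧ ∀ i j,
        s * ‖x i - x j‖ ≤ ‖f i - f j‖ ∧ ‖f i - f j‖ ≤ D * s * ‖x i - x j‖ :=
  Vale.Agent.P249.Lp_embed3 hp D hD n hn x hx

end Vale.Agent.Results.P249.NLogN
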